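import Mathlib

namespace Vale.Agent.P042
open Finset

/-- `s` residues mod `q^2`, ranked below `l`, the rank growing along square differences. -/
def Good (q s l : ℕ) : Prop :=
  ∃ (S : Finset ℕ) (r : ℕ → ℕ), s ≤ S.card ∧ (∀ x ∈ S, x < q ^ 2 ∧ r x < l) ∧
    ∀ x ∈ S, ∀ y ∈ S, x ≠ y → ∀ n : ℕ, x + n ^ 2 ≡ y [MOD q ^ 2] → r x < r y

theorem Good.mono {q s l l' : ℕ} (h : Good q s l) (hl : l ≤ l') : Good q s l' := by
  obtain ⟨S, r, h1, h2, h3⟩ := h
  exact ⟨S, r, h1, fun x hx => ⟨(h2 x hx).1, lt_of_lt_of_le (h2 x hx).2 hl⟩, h3⟩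

theorem good_one : Good 1 1 1 :=
  ⟨{0}, fun _ => 0, by simp, by simp, by simp⟩

theorem Good.lex {q s l q' s' l' : ℕ} (h : Good q s l) (h' : Good q' s' l') (hq : 0 < q) :
    Good (q * q') (s * s') (l * l') := by
  obtain ⟨S, r, h1, h2, h3⟩ := h
  obtain ⟨S', r', h1', h2', h3'⟩ := h'
  have hQ : 0 < q ^ 2 := pow_pos hq 2
  have e1 : ∀ x ∈ S, ∀ u : ℕ, (x + q ^ 2 * u) % q ^ 2 = x := fun x hx u => by
    rw [Nat.add_mul_mod_self_left, Nat.mod_eq_of_lt (h2 x hx).1]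
  have e2 : ∀ x ∈ S, ∀ u : ℕ, (x + q ^ 2 * u) / q ^ 2 = u := fun x hx u => by
    rw [Nat.add_mul_div_left _ _ hQ, Nat.div_eq_of_lt (h2 x hx).1, zero_add]
  refine ⟨(S ×ˢ S').image (fun p => p.1 + q ^ 2 * p.2),
    fun z => r (z % q ^ 2) * l' + r' (z / q ^ 2), ?_, ?_, ?_⟩
  · rw [card_image_of_injOn, card_product]
    · exact Nat.mul_le_mul h1 h1'
    · intro p hp p' hp' e
      have hp1 := (mem_product.1 (mem_coe.1 hp)).1
      have hp2 := (mem_product.1 (mem_coe.1 hp')).1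
      have e : p.1 + q ^ 2 * p.2 = p'.1 + q ^ 2 * p'.2 := e
      refine Prod.ext ?_ ?_
      · rw [← e1 _ hp1 p.2, e, e1 _ hp2]
      · rw [← e2 _ hp1 p.2, e, e2 _ hp2]
  · intro z hz
    obtain ⟨⟨x, u⟩, hp, rfl⟩ := mem_image.1 hz
    obtain ⟨hx, hu⟩ := mem_product.1 hp
    simp only at hx hu ⊢
    rw [e1 x hx, e2 x hx]
    have a1 := h2 x hx
    have a2 := h2' u hu
    constructor
    · rw [mul_pow]
      nlinarith [Nat.mul_le_mul_left (q ^ 2) (Nat.succ_le_of_lt a2.1)]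
    · nlinarith [Nat.mul_le_mul_right l' (Nat.succ_le_of_lt a1.2)]
  · intro z hz w hw hne n hn
    obtain ⟨⟨x, u⟩, hp, rfl⟩ := mem_image.1 hz
    obtain ⟨hx, hu⟩ := mem_product.1 hp
    obtain ⟨⟨y, v⟩, hp', rfl⟩ := mem_image.1 hw
    obtain ⟨hy, hv⟩ := mem_product.1 hp'
    simp only at hx hu hy hv hne hn ⊢
    rw [e1 x hx, e2 x hx, e1 y hy, e2 y hy]
    rw [mul_pow] at hn
    have hm : x + n ^ 2 ≡ y [MOD q ^ 2] := by
      have := hn.of_mul_right (q' ^ 2)
      unfold Nat.ModEq at this ⊢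
      rw [add_right_comm, Nat.add_mul_mod_self_left, Nat.add_mul_mod_self_left] at this
      exact this
    by_cases hxy : x = y
    · subst hxy
      have huv : u ≠ v := fun e => hne (by rw [e])
      have hd : q ^ 2 ∣ n ^ 2 := by
        have : x + n ^ 2 ≡ x + 0 [MOD q ^ 2] := by simpa using hm
        exact (Nat.modEq_zero_iff_dvd).1 (Nat.ModEq.add_left_cancel' x this)
      obtain ⟨m, rfl⟩ := (Nat.pow_dvd_pow_iff (by norm_num)).1 hd
      have : q ^ 2 * (u + m ^ 2) ≡ q ^ 2 * v [MOD q ^ 2 * q' ^ 2] := by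
        refine Nat.ModEq.add_left_cancel' x ?_
        have e : x + q ^ 2 * (u + m ^ 2) = x + q ^ 2 * u + (q * m) ^ 2 := by ring
        rw [e]
        exact hn
      have := h3' u hu v hv huv m (Nat.ModEq.mul_left_cancel' hQ.ne' this)
      omega
    · have a := h3 x hx y hy hxy n hm
      have a2 := (h2' u hu).2
      nlinarith [Nat.mul_le_mul_right l' (Nat.succ_le_of_lt a)]

theorem Good.pow {q s l : ℕ} (h : Good q s l) (hq : 0 < q) (k : ℕ) :
    Good (q ^ k) (s ^ k) (l ^ k) := by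
  induction k with
  | zero => simpa using good_one
  | succ k ih =>
    rw [pow_succ, pow_succ, pow_succ]
    exact ih.lex h (pow_pos hq k)

theorem Good.cop {q s l q' s' l' : ℕ} (h : Good q s l) (h' : Good q' s' l')
    (hq : 0 < q) (hq' : 0 < q') (hc : Nat.Coprime q q') :
    Good (q * q') (s * s') (l + l') := by
  obtain ⟨S, r, h1, h2, h3⟩ := h
  obtain ⟨S', r', h1', h2', h3'⟩ := h'
  have co : Nat.Coprime (q ^ 2) (q' ^ 2) := Nat.Coprime.pow 2 2 hc
  have hQ : 0 < q ^ 2 := pow_pos hq 2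
  have hQ' : 0 < q' ^ 2 := pow_pos hq' 2
  refine ⟨(range ((q * q') ^ 2)).filter (fun z => z % q ^ 2 ∈ S ∧ z % q' ^ 2 ∈ S'),
    fun z => r (z % q ^ 2) + r' (z % q' ^ 2), ?_, ?_, ?_⟩
  · refine le_trans (Nat.mul_le_mul h1 h1') ?_
    rw [← card_product]
    refine card_le_card_of_surjOn (fun z => (z % q ^ 2, z % q' ^ 2)) ?_
    intro p hp
    obtain ⟨hx, hu⟩ := mem_product.1 (mem_coe.1 hp)
    obtain ⟨k, hk1, hk2⟩ := Nat.chineseRemainder co p.1 p.2
    have hpos : 0 < (q * q') ^ 2 := pow_pos (Nat.mul_pos hq hq') 2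
    have a1 : k % (q * q') ^ 2 % q ^ 2 = p.1 := by
      rw [Nat.mod_mod_of_dvd _ (by rw [mul_pow]; exact dvd_mul_right _ _), hk1,
        Nat.mod_eq_of_lt (h2 _ hx).1]
    have a2 : k % (q * q') ^ 2 % q' ^ 2 = p.2 := by
      rw [Nat.mod_mod_of_dvd _ (by rw [mul_pow]; exact dvd_mul_left _ _), hk2,
        Nat.mod_eq_of_lt (h2' _ hu).1]
    refine ⟨k % (q * q') ^ 2, ?_, Prod.ext a1 a2⟩
    refine mem_coe.2 (mem_filter.2 ⟨mem_range.2 (Nat.mod_lt _ hpos), ?_, ?_⟩)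
    · rw [a1]; exact hx
    · rw [a2]; exact hu
  · intro z hz
    obtain ⟨hz, ha, hb⟩ := mem_filter.1 hz
    have := (h2 _ ha).2
    have := (h2' _ hb).2
    exact ⟨mem_range.1 hz, by simp only; omega⟩
  · intro z hz w hw hne n hn
    obtain ⟨hz, ha, hb⟩ := mem_filter.1 hz
    obtain ⟨hw, hc1, hd⟩ := mem_filter.1 hw
    rw [mul_pow] at hn hz hw
    have m1 : z % q ^ 2 + n ^ 2 ≡ w % q ^ 2 [MOD q ^ 2] :=
      ((Nat.mod_modEq z _).add_right _).trans
        ((hn.of_mul_right (q' ^ 2)).trans (Nat.mod_modEq w _).symm)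
    have m2 : z % q' ^ 2 + n ^ 2 ≡ w % q' ^ 2 [MOD q' ^ 2] :=
      ((Nat.mod_modEq z _).add_right _).trans
        ((hn.of_mul_left (q ^ 2)).trans (Nat.mod_modEq w _).symm)
    have b1 := fun e => h3 _ ha _ hc1 e n m1
    have b2 := fun e => h3' _ hb _ hd e n m2
    by_cases e1 : z % q ^ 2 = w % q ^ 2
    · by_cases e2 : z % q' ^ 2 = w % q' ^ 2
      · exact absurd (Nat.ModEq.eq_of_lt_of_lt
          ((Nat.modEq_and_modEq_iff_modEq_mul co).1 ⟨e1, e2⟩) (mem_range.1 hz)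
          (mem_range.1 hw)) hne
      · have := b2 e2
        simp only [e1]
        omega
    · by_cases e2 : z % q' ^ 2 = w % q' ^ 2
      · have := b1 e1
        simp only [e2]
        omega
      · have := b1 e1
        have := b2 e2
        simp only
        omega

/-- A ranked set mod a squarefree `q` lifts to `q^2` with a free second digit. -/
theorem good_sf (q l : ℕ) (hq : Squarefree q) (S : Finset ℕ) (r : ℕ → ℕ)
    (h2 : ∀ x ∈ S, x < q ∧ r x < l)
    (h3 : ∀ x ∈ S, ∀ y ∈ S, x ≠ y → ∀ n ∈ range q, (x + n ^ 2) % q = y → r x < r y) :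
    Good q (S.card * q) l := by
  have hq0 : 0 < q := Nat.pos_of_ne_zero hq.ne_zero
  have e1 : ∀ x ∈ S, ∀ u : ℕ, (x + q * u) % q = x := fun x hx u => by
    rw [Nat.add_mul_mod_self_left, Nat.mod_eq_of_lt (h2 x hx).1]
  have e2 : ∀ x ∈ S, ∀ u : ℕ, (x + q * u) / q = u := fun x hx u => by
    rw [Nat.add_mul_div_left _ _ hq0, Nat.div_eq_of_lt (h2 x hx).1, zero_add]
  refine ⟨(S ×ˢ range q).image (fun p => p.1 + q * p.2), fun z => r (z % q), ?_, ?_, ?_⟩
  · rw [card_image_of_injOn, card_product, card_range]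
    intro p hp p' hp' e
    have hp1 := (mem_product.1 (mem_coe.1 hp)).1
    have hp2 := (mem_product.1 (mem_coe.1 hp')).1
    have e : p.1 + q * p.2 = p'.1 + q * p'.2 := e
    refine Prod.ext ?_ ?_
    · rw [← e1 _ hp1 p.2, e, e1 _ hp2]
    · rw [← e2 _ hp1 p.2, e, e2 _ hp2]
  · intro z hz
    obtain ⟨⟨x, u⟩, hp, rfl⟩ := mem_image.1 hz
    obtain ⟨hx, hu⟩ := mem_product.1 hp
    simp only at hx hu ⊢
    rw [e1 x hx]
    have a1 := h2 x hx
    have a2 := mem_range.1 hu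
    exact ⟨by nlinarith [Nat.mul_le_mul_left q (Nat.succ_le_of_lt a2)], a1.2⟩
  · intro z hz w hw hne n hn
    obtain ⟨⟨x, u⟩, hp, rfl⟩ := mem_image.1 hz
    obtain ⟨hx, hu⟩ := mem_product.1 hp
    obtain ⟨⟨y, v⟩, hp', rfl⟩ := mem_image.1 hw
    obtain ⟨hy, hv⟩ := mem_product.1 hp'
    simp only at hx hu hy hv hne hn ⊢
    rw [e1 x hx, e1 y hy]
    rw [pow_two q] at hn
    have hm : x + n ^ 2 ≡ y [MOD q] := by
      have := hn.of_mul_right q
      unfold Nat.ModEq at this ⊢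
      rw [add_right_comm, Nat.add_mul_mod_self_left, Nat.add_mul_mod_self_left] at this
      exact this
    by_cases hxy : x = y
    · subst hxy
      exfalso
      have hd : q ∣ n ^ 2 := by
        have : x + n ^ 2 ≡ x + 0 [MOD q] := by simpa using hm
        exact (Nat.modEq_zero_iff_dvd).1 (Nat.ModEq.add_left_cancel' x this)
      obtain ⟨m, rfl⟩ := (hq.dvd_pow_iff_dvd (by norm_num)).1 hd
      have : q * (u + q * m ^ 2) ≡ q * v [MOD q * q] := by
        refine Nat.ModEq.add_left_cancel' x ?_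
        have e : x + q * (u + q * m ^ 2) = x + q * u + (q * m) ^ 2 := by ring
        rw [e]
        exact hn
      have h4 := Nat.ModEq.mul_left_cancel' hq0.ne' this
      unfold Nat.ModEq at h4
      rw [Nat.add_mul_mod_self_left, Nat.mod_eq_of_lt (mem_range.1 hu),
        Nat.mod_eq_of_lt (mem_range.1 hv)] at h4
      exact hne (by rw [h4])
    · refine h3 x hx y hy hxy (n % q) (mem_range.2 (Nat.mod_lt _ hq0)) ?_
      have : x + (n % q) ^ 2 ≡ y [MOD q] :=
        (((Nat.mod_modEq n q).pow 2).add_left x).trans hm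
      rw [this, Nat.mod_eq_of_lt (h2 y hy).1]

/-- A ranked set given directly mod `q^2`. -/
theorem good_dir (q l : ℕ) (hq : 0 < q) (S : Finset ℕ) (r : ℕ → ℕ)
    (h2 : ∀ x ∈ S, x < q ^ 2 ∧ r x < l)
    (h3 : ∀ x ∈ S, ∀ y ∈ S, x ≠ y → ∀ n ∈ range (q ^ 2), (x + n ^ 2) % q ^ 2 = y → r x < r y) :
    Good q S.card l := by
  refine ⟨S, r, le_rfl, h2, fun x hx y hy hxy n hm => ?_⟩
  refine h3 x hx y hy hxy (n % q ^ 2) (mem_range.2 (Nat.mod_lt _ (pow_pos hq 2))) ?_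
  have : x + (n % q ^ 2) ^ 2 ≡ y [MOD q ^ 2] :=
    (((Nat.mod_modEq n _).pow 2).add_left x).trans hm
  rw [this, Nat.mod_eq_of_lt (h2 y hy).1]

/-- The conclusion for one `N`. -/
def Free (N : ℕ) (A : Finset ℕ) : Prop :=
  A ⊆ Icc 1 N ∧ ∀ a ∈ A, ∀ b ∈ A, ∀ n : ℕ, 1 ≤ n → a + n ^ 2 ≠ b

theorem Good.free {q s l : ℕ} (h : Good q s l) : ∃ A, Free (q ^ 2 * l) A ∧ s ≤ A.card := by
  obtain ⟨S, r, h1, h2, h3⟩ := h
  have e1 : ∀ x ∈ S, ∀ u : ℕ, (x + q ^ 2 * u) % q ^ 2 = x := fun x hx u => by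
    rw [Nat.add_mul_mod_self_left, Nat.mod_eq_of_lt (h2 x hx).1]
  refine ⟨S.image (fun x => x + q ^ 2 * (l - 1 - r x) + 1), ⟨?_, ?_⟩, ?_⟩
  · intro z hz
    obtain ⟨x, hx, rfl⟩ := mem_image.1 hz
    have a := h2 x hx
    have : l - 1 - r x + 1 ≤ l := by omega
    refine mem_Icc.2 ⟨by omega, ?_⟩
    nlinarith [Nat.mul_le_mul_left (q ^ 2) this]
  · intro a ha b hb n hn e
    obtain ⟨x, hx, rfl⟩ := mem_image.1 ha
    obtain ⟨y, hy, rfl⟩ := mem_image.1 hb
    have hpos : 0 < n ^ 2 := pow_pos hn 2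
    have hxy : x ≠ y := by
      rintro rfl
      omega
    have e' : x + n ^ 2 + q ^ 2 * (l - 1 - r x) = y + q ^ 2 * (l - 1 - r y) := by omega
    have hm : x + n ^ 2 ≡ y [MOD q ^ 2] := by
      have := congrArg (· % q ^ 2) e'
      simp only [Nat.add_mul_mod_self_left] at this
      exact this
    have a := h3 x hx y hy hxy n hm
    have a1 := h2 x hx
    have a2 := h2 y hy
    have : l - 1 - r y + 1 ≤ l - 1 - r x := by omega
    nlinarith [Nat.mul_le_mul_left (q ^ 2) this]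
  · rw [card_image_of_injOn]
    · exact h1
    · intro x hx y hy e
      have e : x + q ^ 2 * (l - 1 - r x) = y + q ^ 2 * (l - 1 - r y) := Nat.succ_injective e
      rw [← e1 x hx (l - 1 - r x), e, e1 y hy]

/-- A family of good sets, one for each power. -/
def Fam (c q s B : ℕ) : Prop := 0 < q ∧ ∀ t, Good (q ^ t) (s ^ t) (c * B ^ t)

theorem Good.fam {q s l : ℕ} (h : Good q s l) (hq : 0 < q) (k B : ℕ) (hB : l ^ k ≤ B) :
    Fam 1 (q ^ k) (s ^ k) B :=
  ⟨pow_pos hq k, fun t => ((h.pow hq k).pow (pow_pos hq k) t).mono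
    (by rw [one_mul]; exact Nat.pow_le_pow_left hB t)⟩

theorem Fam.cop {c q s c' q' s' B : ℕ} (h : Fam c q s B) (h' : Fam c' q' s' B)
    (hc : Nat.Coprime q q') : Fam (c + c') (q * q') (s * s') B := by
  refine ⟨Nat.mul_pos h.1 h'.1, fun t => ?_⟩
  rw [mul_pow, mul_pow, add_mul]
  exact (h.2 t).cop (h'.2 t) (pow_pos h.1 t) (pow_pos h'.1 t) (Nat.Coprime.pow t t hc)

theorem Fam.bound {c q s B : ℕ} (h : Fam c q s B) (hc : 1 ≤ c) (hM : 1 < q ^ 2 * B)
    (hs : (q ^ 2 * B) ^ 189 ≤ s ^ 250) :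
    ∃ e : ℝ, 0 < e ∧ ∀ N : ℕ, 1 ≤ N → ∃ A, Free N A ∧
      e * (N : ℝ) ^ (189 / 250 : ℝ) ≤ A.card := by
  set M := q ^ 2 * B with hMd
  have hM1 : (1 : ℝ) < M := by exact_mod_cast hM
  have hc1 : (1 : ℝ) ≤ c := by exact_mod_cast hc
  have hcM : (0 : ℝ) < c * M := by positivity
  have hθ : (0 : ℝ) ≤ 189 / 250 := by norm_num
  have hsM : (M : ℝ) ^ (189 / 250 : ℝ) ≤ s := by
    have h1 : ((M : ℝ) ^ (189 / 250 : ℝ)) ^ 250 ≤ (s : ℝ) ^ 250 := by
      rw [← Real.rpow_natCast, ← Real.rpow_mul (by positivity)]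
      have : (189 / 250 : ℝ) * ((250 : ℕ) : ℝ) = ((189 : ℕ) : ℝ) := by norm_num
      rw [this, Real.rpow_natCast]
      exact_mod_cast hs
    exact le_of_pow_le_pow_left₀ (by norm_num) (by positivity) h1
  refine ⟨1 / (c * M : ℝ) ^ (189 / 250 : ℝ), by positivity, fun N hN => ?_⟩
  have key : 1 / (c * M : ℝ) ^ (189 / 250 : ℝ) * (N : ℝ) ^ (189 / 250 : ℝ)
      = ((N : ℝ) / (c * M)) ^ (189 / 250 : ℝ) := by
    rw [Real.div_rpow (by positivity) hcM.le]
    ring
  rw [key]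
  by_cases hNc : c ≤ N
  · obtain ⟨t, ht1, ht2⟩ := exists_nat_pow_near (x := (N : ℝ) / c) (y := (M : ℝ))
      (by rw [le_div_iff₀ (by positivity), one_mul]; exact_mod_cast hNc) hM1
    obtain ⟨A, hA, hcard⟩ := (h.2 t).free
    have hle : (q ^ t) ^ 2 * (c * B ^ t) ≤ N := by
      rw [le_div_iff₀ (by positivity)] at ht1
      have : M ^ t * c ≤ N := by exact_mod_cast ht1
      have e : (q ^ t) ^ 2 * (c * B ^ t) = M ^ t * c := by rw [hMd]; ring
      rw [e]
      exact this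
    refine ⟨A, ⟨hA.1.trans (Icc_subset_Icc_right hle), hA.2⟩, ?_⟩
    have h1 : (N : ℝ) / (c * M) ≤ (M : ℝ) ^ t := by
      rw [← div_div, div_le_iff₀ (by positivity), ← pow_succ]
      exact ht2.le
    calc ((N : ℝ) / (c * M)) ^ (189 / 250 : ℝ) ≤ ((M : ℝ) ^ t) ^ (189 / 250 : ℝ) :=
          Real.rpow_le_rpow (by positivity) h1 hθ
      _ = ((M : ℝ) ^ (189 / 250 : ℝ)) ^ t := by
          rw [← Real.rpow_natCast, ← Real.rpow_mul (by positivity), mul_comm,
            Real.rpow_mul (by positivity), Real.rpow_natCast]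
      _ ≤ (s : ℝ) ^ t := pow_le_pow_left₀ (by positivity) hsM t
      _ ≤ A.card := by exact_mod_cast hcard
  · refine ⟨{1}, ⟨by simpa using hN, ?_⟩, ?_⟩
    · intro a ha b hb n hn
      rw [mem_singleton.1 ha, mem_singleton.1 hb]
      have : 0 < n ^ 2 := pow_pos hn 2
      omega
    · have h1 : (N : ℝ) / (c * M) ≤ 1 := by
        rw [div_le_one hcM]
        have : (N : ℝ) ≤ c := by exact_mod_cast (not_le.1 hNc).le
        nlinarith
      simpa using Real.rpow_le_one (by positivity) h1 hθ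

/-- Blocks mod a squarefree number from a list of pairs (residue, rank). -/
theorem blk (q l : ℕ) (hq : Squarefree q) (L : List ℕ) (r : ℕ → ℕ) (s : ℕ)
    (h1 : L.toFinset.card * q = s) (h2 : ∀ x ∈ L, x < q ∧ r x < l)
    (h3 : ∀ x ∈ L, ∀ y ∈ L, x ≠ y → ∀ n ∈ range q, (x + n ^ 2) % q = y → r x < r y) :
    Good q s l :=
  h1 ▸ good_sf q l hq L.toFinset r (fun x hx => h2 x (List.mem_toFinset.1 hx))
    (fun x hx y hy => h3 x (List.mem_toFinset.1 hx) y (List.mem_toFinset.1 hy))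

theorem chain (p l : ℕ) (hp : p.Prime) (L : List ℕ) (s : ℕ)
    (h1 : L.toFinset.card * p = s) (h2 : ∀ x ∈ L, x < p ∧ L.idxOf x < l)
    (h3 : ∀ x ∈ L, ∀ y ∈ L, x ≠ y → ∀ n ∈ range p, (x + n ^ 2) % p = y →
      L.idxOf x < L.idxOf y) : Good p s l :=
  blk p l hp.prime.squarefree L (fun x => L.idxOf x) s h1 h2 h3

theorem g2 : Good 4 10 6 :=
  good_dir 4 6 (by norm_num) {0, 1, 2, 3, 5, 6, 8, 9, 11, 14}
    (fun x => [0, 1, 4, 5, 0, 2, 5, 0, 0, 3, 0, 5, 0, 0, 3].getD x 0)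
    (by decide +kernel) (by decide +kernel)

theorem g115 : Good 115 1380 6 :=
  blk 115 6 (by
      have : (115 : ℕ) = 5 * 23 := by norm_num
      rw [this, Nat.squarefree_mul (by norm_num)]
      exact ⟨(by norm_num : Nat.Prime 5).prime.squarefree,
        (by norm_num : Nat.Prime 23).prime.squarefree⟩)
    [79, 87, 49, 96, 7, 35, 39, 66, 5, 103, 36, 88]
    (fun x => [79, 87, 49, 96, 7, 35, 39, 66, 5, 103, 36, 88].idxOf x / 2) _
    (by decide +kernel) (by decide +kernel) (by decide +kernel)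

theorem g3 : Good 3 6 2 :=
  chain 3 2 (by norm_num) [0, 1] _ (by decide +kernel) (by decide +kernel) (by decide +kernel)
theorem g7 : Good 7 21 3 :=
  chain 7 3 (by norm_num) [0, 1, 2] _ (by decide +kernel) (by decide +kernel) (by decide +kernel)
theorem g11 : Good 11 44 4 :=
  chain 11 4 (by norm_num) [0, 1, 4, 5] _
    (by decide +kernel) (by decide +kernel) (by decide +kernel)
theorem g19 : Good 19 95 5 :=
  chain 19 5 (by norm_num) [0, 1, 6, 17, 7] _
    (by decide +kernel) (by decide +kernel) (by decide +kernel)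
theorem g31 : Good 31 217 7 :=
  chain 31 7 (by norm_num) [0, 1, 8, 5, 2, 9, 10] _
    (by decide +kernel) (by decide +kernel) (by decide +kernel)
theorem g43 : Good 43 301 7 :=
  chain 43 7 (by norm_num) [0, 1, 10, 14, 11, 24, 25] _
    (by decide +kernel) (by decide +kernel) (by decide +kernel)
theorem g59 : Good 59 531 9 :=
  chain 59 9 (by norm_num) [0, 1, 20, 29, 27, 21, 46, 49, 36] _
    (by decide +kernel) (by decide +kernel) (by decide +kernel)
theorem g71 : Good 71 639 9 :=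
  chain 71 9 (by norm_num) [0, 1, 37, 20, 6, 30, 9, 49, 38] _
    (by decide +kernel) (by decide +kernel) (by decide +kernel)
theorem g103 : Good 103 1133 11 :=
  chain 103 11 (by norm_num) [0, 1, 29, 92, 2, 61, 17, 30, 93, 18, 19] _
    (by decide +kernel) (by decide +kernel) (by decide +kernel)

theorem lower : ∃ e : ℝ, 0 < e ∧ ∀ N : ℕ, 1 ≤ N → ∃ A, Free N A ∧
    e * (N : ℝ) ^ (189 / 250 : ℝ) ≤ A.card := by
  have f1 := g2.fam (by norm_num) 10 (2 ^ 26) (by norm_num)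
  have f2 := f1.cop (g115.fam (by norm_num) 10 (2 ^ 26) (by norm_num)) (by decide +kernel)
  have f3 := f2.cop (g3.fam (by norm_num) 26 (2 ^ 26) (by norm_num)) (by decide +kernel)
  have f4 := f3.cop (g7.fam (by norm_num) 16 (2 ^ 26) (by norm_num)) (by decide +kernel)
  have f5 := f4.cop (g11.fam (by norm_num) 13 (2 ^ 26) (by norm_num)) (by decide +kernel)
  have f6 := f5.cop (g19.fam (by norm_num) 11 (2 ^ 26) (by norm_num)) (by decide +kernel)
  have f7 := f6.cop (g31.fam (by norm_num) 9 (2 ^ 26) (by norm_num)) (by decide +kernel)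
  have f8 := f7.cop (g43.fam (by norm_num) 9 (2 ^ 26) (by norm_num)) (by decide +kernel)
  have f9 := f8.cop (g59.fam (by norm_num) 8 (2 ^ 26) (by norm_num)) (by decide +kernel)
  have f10 := f9.cop (g71.fam (by norm_num) 8 (2 ^ 26) (by norm_num)) (by decide +kernel)
  have f11 := f10.cop (g103.fam (by norm_num) 7 (2 ^ 26) (by norm_num)) (by decide +kernel)
  exact f11.bound (by norm_num) (by decide +kernel) (by decide +kernel)

end Vale.Agent.P042
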